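import Vale.Agent.P196.Full.Lift.Engine.Join

/-!
# P196: gluing and restricting partitions

Partitions of the blocks of a partition glue to a finer one; an event below one block is compatible
with the partition; the part of a partition inside a compatible event is a partition of the event.
-/

namespace Vale.Agent.P196.Full.Lift

open Calculus Calculus.Part
open scoped commutatorElement

variable {n : ℕ} {Q : Type} [Group Q] {A : Amp Q n} {u : Alt n →* Q}

/-- Good coefficients below orthogonal ones are orthogonal. -/
theorem comm_of_below {e e' x x' : Alt n →* Q} (A : Amp Q n) (hc : Comm e e') (hx : Meet x e x)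
    (hx' : Meet x' e' x') (gx : A.Good x) (gx' : A.Good x') (ge : A.Good e) (ge' : A.Good e') :
    Comm x x' :=
  Meet.orth A.eight_le hx hx' hc (gx.sep gx') (gx.sep ge') (ge.sep gx')

/-- Partitions of all blocks glue to a partition. -/
theorem exists_glue {I J : Type} [Finite I] [Finite J] [DecidableEq I] [DecidableEq J]
    {P : Part u I} (hP : GoodPart A P) (R : ∀ i, Part (P.atom i) J)
    (hR : ∀ i, GoodPart A (R i)) :
    ∃ T : Part u (I × J), GoodPart A T ∧ ∀ i j, T.atom (i, j) = (R i).atom j := by
  classical
  have := Fintype.ofFinite I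
  let h : ∀ i : I, (I × J → Alt n) →* Q := fun i =>
    (R i).hom.comp (MonoidHom.mk' (fun y j => y (i, j)) fun _ _ => rfl)
  have hcomm : Pairwise fun i i' : I => ∀ y y', Commute (h i y) (h i' y') := by
    intro i i' hii y y'
    refine commute_pi (R i').hom _ _ fun j' => ?_
    refine (commute_pi (R i).hom _ _ fun j => ?_).symm
    exact (comm_of_below A (P.comm_atom hii) ((R i).meet_atom_unit j) ((R i').meet_atom_unit j')
      ((hR i).atom j) ((hR i').atom j') (hP.atom i) (hP.atom i') _ _).symm
  let Θ : (I → I × J → Alt n) →* Q := MonoidHom.noncommPiCoprod h hcomm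
  let T : (I × J → Alt n) →* Q := Θ.comp (MonoidHom.pi fun _ => MonoidHom.id _)
  have hT : ∀ y, T y = Θ fun _ => y := fun _ => rfl
  have hsingle : ∀ i y, Θ (Pi.mulSingle i y) = h i y :=
    fun i y => MonoidHom.noncommPiCoprod_mulSingle _ (hcomm := hcomm) i y
  have hconst : ∀ a, T (fun _ => a) = u a := by
    intro a
    let m₁ : (I → Alt n) →* Q :=
      Θ.comp (MonoidHom.mk' (fun y i _ => y i) fun _ _ => rfl)
    have e : m₁ = P.hom := MonoidHom.pi_ext fun i b => by
      show Θ (fun i' _ => Pi.mulSingle (M := fun _ : I => Alt n) i b i') = P.atom i b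
      rw [show (fun i' (_ : I × J) => Pi.mulSingle (M := fun _ : I => Alt n) i b i') =
          Pi.mulSingle i (fun _ : I × J => b) from funext fun i' => by
            by_cases hi : i' = i
            · subst hi; simp
            · simp [hi]; rfl, hsingle]
      exact (R i).hom_const b
    rw [hT, ← P.hom_const, ← e]
    rfl
  have hatom : ∀ i j, Part.atom (⟨T, hconst⟩ : Part u (I × J)) (i, j) = (R i).atom j := by
    intro i j
    refine MonoidHom.ext fun a => ?_
    show T (Pi.mulSingle (i, j) a) = _
    have hz : ∀ i', i' ≠ i → h i' (Pi.mulSingle (i, j) a) = 1 := fun i' hi => by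
      show (R i').hom _ = 1
      rw [← map_one (R i').hom]
      exact congrArg (R i').hom (funext fun j' => by simp [hi])
    have he : Θ (fun _ => Pi.mulSingle (i, j) a) = Θ (Pi.mulSingle i (Pi.mulSingle (i, j) a)) := by
      rw [← mul_inv_eq_one, ← map_inv, ← map_mul]
      refine Subgroup.pi_mem_of_mulSingle_mem (H := Θ.ker) _ fun i' => ?_
      rw [MonoidHom.mem_ker, hsingle]
      by_cases hi : i' = i
      · subst hi; simp
      · simp [hi, hz i' hi]
    rw [hT, he, hsingle]
    show (R i).hom _ = (R i).hom _
    exact congrArg (R i).hom (funext fun j' => by simp [Pi.mulSingle_apply])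
  exact ⟨⟨T, hconst⟩, goodPart_of_atoms fun z => hatom z.1 z.2 ▸ (hR z.1).atom z.2, hatom⟩

/-- An event below one block of a partition is compatible with it. -/
theorem compat_of_le {I : Type*} [Finite I] [DecidableEq I] (hn : 8 ≤ n) (C : Part u Bool)
    (G : Part u I) (κ : I) (h : ∀ i, i ≠ κ → Comm (C.atom true) (G.atom i)) : Compat C G := by
  have hu : ∀ b, C.atom true b * C.atom false b = u b := fun b => by
    rw [← C.hom_const, atom_apply, atom_apply, ← map_mul]
    congr 1; funext y; cases y <;> simp
  have own : Meet (C.atom true) (G.atom κ) (C.atom true) :=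
    meet_own (C.meet_atom_unit true) h
  have move : ∀ {e : Alt n →* Q} {c : Alt n →* Q}, Meet c e c →
      ∀ x y, e x * c y * (e x)⁻¹ = c (x * y * x⁻¹) := by
    intro e c hm x y
    have := hm.symm x y
    rw [commutatorElement_def, commutatorElement_def, map_mul c, map_inv c] at this
    exact mul_right_cancel this
  obtain ⟨ν, hν, hG⟩ := exists_complement (n := n) (by omega) (g := G.atom κ) (μ := C.atom true)
    fun a b c => by
      generalize ⁅a, b⁆ = x
      have h1 := move own x c
      have h2 : (G.atom κ x) * C.atom true c = C.atom true (x * c * x⁻¹) * G.atom κ x := by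
        rw [← h1]; group
      show _ * _ = _ * _
      rw [mul_assoc, h2, map_mul, map_mul, map_inv]
      group
  refine compat_of_meets hn fun c i => ?_
  cases c with
  | true =>
    by_cases hi : i = κ
    · exact hi ▸ ⟨_, own⟩
    · exact ⟨1, Meet.of_comm (h i hi)⟩
  | false =>
    have fs : ∀ x, C.atom false x = (C.atom true x)⁻¹ * u x := fun x => by
      rw [← hu]; group
    by_cases hi : i = κ
    · subst hi
      refine ⟨ν, fun a b => ?_⟩
      have c1 : Commute (C.atom false a) (C.atom true b) := C.comm_atom (by simp) a b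
      have k1 : u a * C.atom true b * (u a)⁻¹ = C.atom true (a * b * a⁻¹) :=
        move (C.meet_atom_unit true) a b
      have k2 : u a * G.atom i b * (u a)⁻¹ = G.atom i (a * b * a⁻¹) :=
        move (G.meet_atom_unit i) a b
      have k3 : u a * ν b * (u a)⁻¹ = ν (a * b * a⁻¹) := by
        have e1 : ∀ z, ν z = (C.atom true z)⁻¹ * G.atom i z := fun z => by rw [hG]; group
        rw [e1, e1, ← k1, ← k2]; group
      rw [commutatorElement_def, hG b, fs]
      have c2 : Commute ((C.atom true a)⁻¹) (ν (a * b * a⁻¹)) := (hν a _).inv_left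
      have c3 : Commute (C.atom true a) (ν b) := hν a b
      rw [fs] at c1
      calc (C.atom true a)⁻¹ * u a * (C.atom true b * ν b) *
            ((C.atom true a)⁻¹ * u a)⁻¹ * (C.atom true b * ν b)⁻¹
          = ((C.atom true a)⁻¹ * u a * C.atom true b) * (ν b * (u a)⁻¹ * C.atom true a) *
              (ν b)⁻¹ * (C.atom true b)⁻¹ := by group
        _ = C.atom true b * ((C.atom true a)⁻¹ * (u a * ν b * (u a)⁻¹)) *
              (C.atom true a * (ν b)⁻¹) * (C.atom true b)⁻¹ := by rw [c1.eq]; group
        _ = C.atom true b * (ν (a * b * a⁻¹) * (C.atom true a)⁻¹) *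
              (C.atom true a * (ν b)⁻¹) * (C.atom true b)⁻¹ := by rw [k3, c2.eq]
        _ = C.atom true b * ν ⁅a, b⁆ * (C.atom true b)⁻¹ := by
              simp only [commutatorElement_def, map_mul, map_inv]; group
        _ = ν ⁅a, b⁆ := by rw [(hν b _).eq]; group
    · refine ⟨G.atom i, fun a b => ?_⟩
      rw [fs, commutatorElement_def]
      have c1 : Commute (C.atom true a) (G.atom i b) := h i hi a b
      have k2 : u a * G.atom i b * (u a)⁻¹ = G.atom i (a * b * a⁻¹) :=
        move (G.meet_atom_unit i) a b
      have c2 : Commute ((C.atom true a)⁻¹) (G.atom i (a * b * a⁻¹)) := (h i hi a _).inv_left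
      calc (C.atom true a)⁻¹ * u a * G.atom i b * ((C.atom true a)⁻¹ * u a)⁻¹ * (G.atom i b)⁻¹
          = (C.atom true a)⁻¹ * (u a * G.atom i b * (u a)⁻¹) * C.atom true a *
              (G.atom i b)⁻¹ := by group
        _ = G.atom i (a * b * a⁻¹) * (G.atom i b)⁻¹ := by rw [k2, c2.eq]; group
        _ = _ := by simp only [commutatorElement_def, map_mul, map_inv]

/-- The part of a partition inside an event refined by it. -/
theorem exists_restrict {L : Type} [Finite L] [DecidableEq L] {T : Part u (Bool × L)}
    (hT : GoodPart A T) {e : Alt n →* Q} (he : (T.merge Prod.fst).atom true = e) :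
    ∃ R : Part e L, GoodPart A R ∧ ∀ l, R.atom l = T.atom (true, l) := by
  let h : (L → Alt n) →* Q :=
    T.hom.comp (MonoidHom.mk' (fun y z => if z.1 then y z.2 else 1) fun y y' => funext fun z => by
      obtain ⟨b, l⟩ := z; cases b <;> simp)
  have hconst : ∀ a, h (fun _ => a) = e a := fun a => by
    rw [← he, atom_apply, merge_apply]
    exact congrArg T.hom (funext fun z => by obtain ⟨b, l⟩ := z; cases b <;> simp)
  have hatom : ∀ l, Part.atom (⟨h, hconst⟩ : Part e L) l = T.atom (true, l) := fun l =>
    MonoidHom.ext fun a => congrArg T.hom (funext fun z => by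
      obtain ⟨b, l'⟩ := z
      cases b <;> simp [Pi.mulSingle_apply])
  exact ⟨⟨h, hconst⟩, goodPart_of_atoms fun l => hatom l ▸ hT.atom _, hatom⟩

/-- A union of events compatible with a partition. -/
theorem compat_union {I J : Type} [Finite I] [DecidableEq I] [Finite J] {P : Part u I}
    {S : Part u J} (hP : GoodPart A P) (hS : GoodPart A S) (s : Finset I)
    (h : ∀ i ∈ s, Compat (P.merge fun k => decide (k = i)) S) :
    Compat (P.merge fun k => decide (k ∈ s)) S := by
  classical
  induction s using Finset.induction_on with
  | empty =>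
    refine (Compat.of_refines (f := fun _ => false) ?_).symm
    refine MonoidHom.ext fun y => ?_
    simp only [merge_apply, Finset.notMem_empty, decide_false]
    show S.hom (fun _ => y false) = P.hom fun _ => y false
    rw [S.hom_const, P.hom_const]
  | @insert a s ha ih =>
    have := compat_joint (hP.merge fun k => decide (k = a)) (hP.merge fun k => decide (k ∈ s)) hS
      (T := P.merge fun k => (decide (k = a), decide (k ∈ s))) ⟨rfl, rfl⟩
      (h a (Finset.mem_insert_self _ _)) (ih fun i hi => h i (Finset.mem_insert_of_mem hi))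
    refine this.of_refines_left (f := fun z => z.1 || z.2) (MonoidHom.ext fun y => ?_)
    rw [merge_apply, merge_apply, merge_apply]
    exact congrArg P.hom (funext fun k => by simp)

end Vale.Agent.P196.Full.Lift
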