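import Vale.Agent.P196.Full.Lift.Engine.Poss

/-!
# P196: joins of good partitions

In the amplified lattice a finite family of pairwise compatible good partitions has a good common
refinement, compatible with whatever all members are compatible with.
-/

namespace Vale.Agent.P196.Full.Lift

open Calculus Calculus.Part

variable {n : ℕ} {Q : Type} [Group Q] {A : Amp Q n} {u : Alt n →* Q}

/-- The join of two good partitions is compatible with what both are compatible with. -/
theorem compat_joint {I J K : Type*} [Finite I] [Finite J] [Finite K] {P : Part u I}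
    {R : Part u J} {S : Part u K} {T : Part u (I × J)} (hP : GoodPart A P) (hR : GoodPart A R)
    (hS : GoodPart A S) (hT : IsJoint P R T) (h₁ : Compat P S) (h₂ : Compat R S) :
    Compat T S := by
  classical
  exact hP.compat_join hR hS hT h₁ h₂

/-- The partition with one block. -/
theorem goodPart_default {I : Type*} [Finite I] [Inhabited I] (hu : A.Good u) :
    GoodPart A (Part.unit u : Part u I) := by
  classical
  refine goodPart_of_atoms fun i => ?_
  by_cases h : default = i
  · convert hu using 1
    exact MonoidHom.ext fun a => by simp [Part.unit, atom_apply, h]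
  · convert Amp.Good.one A using 1
    exact MonoidHom.ext fun a => by simp [Part.unit, atom_apply, h]

theorem goodPart_of_eq {I : Type*} {P R : Part u I} (h : P = R) (hP : GoodPart A P) :
    GoodPart A R := h ▸ hP

/-- Pairwise compatible good partitions have a good common refinement. -/
theorem exists_join (hu : A.Good u) (ι : Type) [Finite ι] :
    ∀ (I : ι → Type) [∀ k, Finite (I k)] (P : ∀ k, Part u (I k)), (∀ k, GoodPart A (P k)) →
    (∀ k l, Compat (P k) (P l)) →
    ∃ R : Part u (∀ k, I k), GoodPart A R ∧ (∀ k, R.merge (fun x => x k) = P k) ∧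
      ∀ (J : Type) [Finite J] (S : Part u J), GoodPart A S → (∀ k, Compat (P k) S) →
        Compat R S := by
  classical
  refine Finite.induction_empty_option (P := fun ι => ∀ [Finite ι], ∀ (I : ι → Type)
    [∀ k, Finite (I k)] (P : ∀ k, Part u (I k)), (∀ k, GoodPart A (P k)) →
    (∀ k l, Compat (P k) (P l)) →
    ∃ R : Part u (∀ k, I k), GoodPart A R ∧ (∀ k, R.merge (fun x => x k) = P k) ∧
      ∀ (J : Type) [Finite J] (S : Part u J), GoodPart A S → (∀ k, Compat (P k) S) →
        Compat R S) ?_ ?_ ?_ ι
  · intro α β e hα _ I _ P hg hP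
    have : Finite α := Finite.of_equiv β e.symm
    obtain ⟨R, h0, h1, h2⟩ :=
      hα (fun a => I (e a)) (fun a => P (e a)) (fun a => hg _) fun a b => hP _ _
    refine ⟨R.merge (Equiv.piCongrLeft I e), h0.merge _, fun k => ?_, fun J _ S hS hQ => ?_⟩
    · obtain ⟨a, rfl⟩ := e.surjective k
      rw [merge_merge, ← h1 a]
      exact congrArg R.merge (funext fun x => Equiv.piCongrLeft_apply_apply I e x a)
    · exact (h2 J S hS fun a => hQ _).of_refines_left rfl
  · intro _ I _ P _ _
    have : Inhabited (∀ k, I k) := ⟨fun k => k.elim⟩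
    refine ⟨Part.unit u, goodPart_default hu, fun k => k.elim, fun J _ S _ _ => ?_⟩
    refine (Compat.of_refines (f := fun _ => (default : ∀ k, I k)) ?_).symm
    refine MonoidHom.ext fun y => ?_
    rw [merge_apply]
    exact S.hom_const _
  · intro α _ hα _ I _ P hg hP
    obtain ⟨R, h0, h1, h2⟩ :=
      hα (fun a => I (some a)) (fun a => P (some a)) (fun a => hg _) fun a b => hP _ _
    obtain ⟨T, hT⟩ := (h2 _ (P none) (hg none) fun a => hP _ _).symm
    let e : I none × (∀ a, I (some a)) → ∀ k, I k :=
      fun z k => Option.rec (motive := I) z.1 z.2 k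
    refine ⟨T.merge e, ((hg none).joint h0 hT).merge _, fun k => ?_, fun J _ S hS hQ => ?_⟩
    · cases k with
      | none => rw [merge_merge]; exact part_ext hT.1
      | some a =>
        rw [merge_merge, ← h1 a, ← part_ext hT.2, merge_merge]
        rfl
    · exact (compat_joint (hg none) h0 hS hT (hQ none)
        (h2 J S hS fun a => hQ _)).of_refines_left rfl

/-- Two partitions compatible with a third are compatible when, on each of its blocks, one of
them is constant. -/
theorem compat_of_const {I J K : Type*} [Finite I] [Finite J] [Finite K] [DecidableEq I]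
    [DecidableEq J] [DecidableEq K] {P : Part u I} {R : Part u J} {S : Part u K}
    (hP : GoodPart A P) (hR : GoodPart A R) (hS : GoodPart A S) (hPS : Compat P S)
    (hRS : Compat R S)
    (h : ∀ s, S.atom s ≠ 1 →
      (Poss P (S.atom s)).Subsingleton ∨ (Poss R (S.atom s)).Subsingleton) : Compat P R := by
  obtain ⟨T, hT⟩ := hPS
  obtain ⟨V, hV⟩ := hRS
  refine ((?_ : Compat T R)).of_refines_left (f := Prod.fst) hT.1
  have hn := A.eight_le
  have hTg := hP.joint hS hT
  refine compat_of_meets hn fun z j => ?_
  obtain ⟨i, s⟩ := z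
  by_cases hz : T.atom (i, s) = 1
  · exact ⟨1, Meet.of_comm (hz ▸ (comm_one_right _).symm)⟩
  have hs : S.atom s ≠ 1 := fun e => hz (Meet.unique A.five_le (hT.meet i s)
    (Meet.of_comm (e ▸ comm_one_right _)))
  have hi : i ∈ Poss P (S.atom s) := fun hc => hz (Meet.unique A.five_le (hT.meet i s)
    (Meet.of_comm hc.symm))
  rcases h s hs with hs' | hs'
  · have eq : T.atom (i, s) = S.atom s := Meet.unique A.five_le (hT.meet i s)
      (meet_own (S.meet_atom_unit s) fun i' hne => by_contra fun hc => hne (hs' hc hi)).symm
    exact ⟨_, eq ▸ (hV.meet j s).symm⟩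
  · by_cases hj : j ∈ Poss R (S.atom s)
    · refine ⟨T.atom (i, s), meet_own (T.meet_atom_unit _) fun j' hne => ?_⟩
      have hc : Comm (S.atom s) (R.atom j') := by_contra fun hc => hne (hs' hc hj)
      exact Meet.orth hn (hT.meet i s) (Meet.self _) hc ((hP.atom i).sep (hR.atom j'))
        ((hP.atom i).sep (hR.atom j')) hc.sep
    · have hc : Comm (S.atom s) (R.atom j) := not_not.1 hj
      exact ⟨1, Meet.of_comm (Meet.orth hn (hT.meet i s) (Meet.self _) hc
        ((hP.atom i).sep (hR.atom j)) ((hP.atom i).sep (hR.atom j)) hc.sep)⟩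

end Vale.Agent.P196.Full.Lift
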