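import Vale.Agent.P196.Full.Lift.Basic

/-!
# P196: the blocks a coefficient can see

`Poss P e` is the set of blocks of `P` not orthogonal to `e`. It is never empty for a non-trivial
coefficient below the unit, it passes through shared coarsenings, and when it is constant on every
block of a partition for some observable, that partition refines the observable.
-/

namespace Vale.Agent.P196.Full.Lift

open Calculus Calculus.Part
open scoped commutatorElement

variable {n : ℕ} {Q : Type} [Group Q] {A : Amp Q n} {u : Alt n →* Q} {I J K : Type*}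

theorem part_ext {P R : Part u I} (h : P.hom = R.hom) : P = R := by
  cases P; cases R; cases h; rfl

theorem merge_merge {L : Type*} (P : Part u I) (f : I → J) (g : J → L) :
    (P.merge f).merge g = P.merge (g ∘ f) := part_ext rfl

theorem compat_merges {L : Type*} (P : Part u I) (f : I → J) (g : I → L) :
    Compat (P.merge f) (P.merge g) := Compat.of_common (R := P) rfl rfl

/-- The blocks that `e` can see. -/
def Poss [DecidableEq I] (P : Part u I) (e : Alt n →* Q) : Set I := {i | ¬ Comm e (P.atom i)}

theorem comm_one_right (e : Alt n →* Q) : Comm e (1 : Alt n →* Q) :=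
  fun _ _ => Commute.one_right _

variable [DecidableEq I] [DecidableEq J] [DecidableEq K]

theorem Amp.eight_le (A : Amp Q n) : 8 ≤ n := A.closed.colours

/-- Orthogonality to a merged block is orthogonality to its blocks. -/
theorem comm_merge_iff [Finite I] {P : Part u I} (hP : GoodPart A P) {e : Alt n →* Q}
    (he : A.Good e) (f : I → J) (j : J) :
    Comm e ((P.merge f).atom j) ↔ ∀ i, f i = j → Comm e (P.atom i) := by
  refine ⟨fun h i hi => ?_, fun h a b => ?_⟩
  · subst hi
    have own : Meet (P.atom i) ((P.merge f).atom (f i)) (P.atom i) := by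
      intro a b
      rw [atom_apply, atom_apply, atom_apply, merge_apply, ← map_commutatorElement]
      refine congrArg P.hom (funext fun k => ?_)
      by_cases hk : k = i
      · subst hk; simp [commutatorElement_def]
      · simp [commutatorElement_def, Pi.mulSingle_eq_of_ne hk]
    exact Meet.orth A.eight_le (Meet.self e) own h (he.sep (hP.atom i)) h.sep (he.sep (hP.atom i))
  · rw [atom_apply, merge_apply]
    refine commute_pi P.hom (e a) _ fun i => ?_
    by_cases hi : f i = j
    · simp only [Function.comp_apply, hi, Pi.mulSingle_eq_same]; exact h i hi a b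
    · simp [Pi.mulSingle_eq_of_ne hi]

/-- A coefficient below the unit which sees no block is trivial. -/
theorem eq_one_of_comm_atoms [Finite I] (hn : 5 ≤ n) (P : Part u I) {e : Alt n →* Q}
    (hu : Meet e u e) (h : ∀ i, Comm e (P.atom i)) : e = 1 := by
  refine Meet.unique hn hu (Meet.of_comm fun a b => ?_)
  rw [← P.hom_const]
  exact commute_pi P.hom (e a) _ fun i => h i a b

theorem poss_nonempty [Finite I] (P : Part u I) (A : Amp Q n) {e : Alt n →* Q} (hu : Meet e u e)
    (hne : e ≠ 1) : (Poss P e).Nonempty := by
  by_contra hc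
  exact hne (eq_one_of_comm_atoms A.five_le P hu fun i => by_contra fun hi => hc ⟨i, hi⟩)

/-- A block sees only itself. -/
theorem eq_of_mem_poss_atom {P : Part u I} {i j : I} (h : j ∈ Poss P (P.atom i)) : j = i :=
  by_contra fun hne => h (P.comm_atom (Ne.symm hne))

theorem mem_poss_atom [Finite I] (A : Amp Q n) {P : Part u I} {i : I} (h : P.atom i ≠ 1) :
    i ∈ Poss P (P.atom i) := by
  obtain ⟨j, hj⟩ := poss_nonempty P A (P.meet_atom_unit i) h
  exact eq_of_mem_poss_atom hj ▸ hj

theorem ne_one_of_mem_poss {P : Part u I} {e : Alt n →* Q} {i : I} (h : i ∈ Poss P e) :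
    e ≠ 1 ∧ P.atom i ≠ 1 :=
  ⟨fun q => h (q ▸ (comm_one_right _).symm), fun q => h (q ▸ comm_one_right e)⟩

open Classical in
/-- Equal blocks pass possibility on. -/
theorem arc_block [Finite I] [Finite J] {P : Part u I} (hP : GoodPart A P) {R : Part u J}
    (hR : GoodPart A R) {e : Alt n →* Q} (he : A.Good e) {p : I → Prop} {q : J → Prop}
    (hpq : block P p = block R q) {i : I} (hi : i ∈ Poss P e) (hp : p i) :
    ∃ j ∈ Poss R e, q j := by
  by_contra hc
  simp only [not_exists, not_and] at hc
  have h : Comm e (block R q) := by
    rw [block_eq]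
    refine (comm_merge_iff hR he _ true).2 fun j hj => by_contra fun hjP => ?_
    exact hc j hjP (by simpa using hj)
  rw [← hpq, block_eq] at h
  exact hi ((comm_merge_iff hP he _ true).1 h i (by simpa using hp))

/-- A partition each of whose blocks sees one value of an observable refines it. -/
theorem merge_eq_of_poss [Finite I] [Finite J] [Finite K] {R : Part u I} (hR : GoodPart A R)
    {P : Part u J} (hP : GoodPart A P) (φ : I → K) (f : J → K)
    (h : ∀ i, R.atom i ≠ 1 → ∀ j ∈ Poss P (R.atom i), f j = φ i) : R.merge φ = P.merge f := by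
  refine part_ext (refines_of_orth (P := R) (Q := P.merge f) A.eight_le φ fun i k hk => ?_)
  refine (comm_merge_iff hP (hR.atom i) f k).2 fun j hj => by_contra fun hjP => hk ?_
  rw [← hj]
  exact h i (ne_one_of_mem_poss (e := R.atom i) hjP).1 j hjP

/-- A refinement sees one value of what it refines. -/
theorem eq_of_mem_poss [Finite I] [Finite J] {R : Part u I} (hR : GoodPart A R) {P : Part u J}
    (hP : GoodPart A P) {φ : I → K} {f : J → K} (h : R.merge φ = P.merge f) {i : I} {j : J}
    (hj : j ∈ Poss P (R.atom i)) : f j = φ i := by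
  by_contra hne
  refine hj ((comm_merge_iff hP (hR.atom i) f (f j)).1 ?_ j rfl)
  rw [← h]
  exact (comm_merge_iff hR (hR.atom i) φ _).2 fun i' hi' =>
    R.comm_atom fun e => hne (by rw [← hi', ← e])

/-- A coefficient seeing one block only lies below it. -/
theorem meet_own [Finite I] {P : Part u I} {e : Alt n →* Q} (hu : Meet e u e) {i : I}
    (h : ∀ j, j ≠ i → Comm e (P.atom j)) : Meet e (P.atom i) e := by
  intro a b
  rw [← hu a b, ← P.hom_const]
  have e' : (fun _ : I => b) = Pi.mulSingle i b * fun j => if j = i then 1 else b := by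
    funext j; by_cases hj : j = i <;> simp [hj]
  have hc : Commute (e a) (P.hom fun j => if j = i then 1 else b) := by
    refine commute_pi _ _ _ fun j => ?_
    by_cases hj : j = i
    · simp [hj]
    · rw [if_neg hj]; exact h j hj a b
  rw [e', map_mul, ← atom_apply, commutatorElement_def, commutatorElement_def]
  have := hc.inv_left.eq
  calc e a * P.atom i b * (e a)⁻¹ * (P.atom i b)⁻¹
      = e a * P.atom i b * ((e a)⁻¹ * (P.hom fun j => if j = i then 1 else b)) *
          (P.hom fun j => if j = i then 1 else b)⁻¹ * (P.atom i b)⁻¹ := by group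
    _ = _ := by rw [this]; group

/-- Mutual exclusion of the other blocks makes two blocks equal. -/
theorem atom_eq_of_comm [Finite I] [Finite J] (hn : 5 ≤ n) {P : Part u I} {R : Part u J} {i : I}
    {j : J} (h₁ : ∀ j', j' ≠ j → Comm (P.atom i) (R.atom j'))
    (h₂ : ∀ i', i' ≠ i → Comm (R.atom j) (P.atom i')) : P.atom i = R.atom j :=
  Meet.unique hn (meet_own (P.meet_atom_unit i) h₁) (meet_own (R.meet_atom_unit j) h₂).symm

end Vale.Agent.P196.Full.Lift
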