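import Vale.Agent.P196.Full.Lift.Engine.Poss
import Vale.Agent.P196.Full.Lift.ShiftPart

/-!
# P196: translated partitions

A good partition is translated block by block, and a unit whose parts of each colour are moved by
a vector onto parts of the same colour is fixed by that vector.
-/

namespace Vale.Agent.P196.Full.Lift

open Calculus Calculus.Part

variable {n : ℕ} {Q : Type} [Group Q] {A : Amp Q n} {u : Alt n →* Q} {I : Type}

open Classical in
/-- The value of a union of blocks. -/
theorem block_apply_eq (P : Part u I) (p : I → Prop) (a : Alt n) :
    block P p a = P.hom fun i => if p i then a else 1 := by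
  rw [block_eq]
  exact congrArg P.hom (funext fun i => by by_cases h : p i <;> simp [h])

theorem block_top (P : Part u I) : block P (fun _ => True) = u :=
  MonoidHom.ext fun a => by rw [block_apply_eq, ← P.hom_const]; simp

theorem meet_block_unit (P : Part u I) (p : I → Prop) : Meet (block P p) u (block P p) := by
  classical
  exact (P.merge fun i => decide (p i)).meet_atom_unit true

/-- A vector moving each colour class onto the class of the same colour fixes the unit. -/
theorem shift_unit_of_match [Finite I] {P : Part u I} {v : Lat} {Γ : Type*} (f g : I → Γ)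
    (h : ∀ γ, A.Shift v (block P fun i => f i = γ) (block P fun i => g i = γ)) :
    A.Shift v u u := by
  classical
  let S : Set Γ := Set.range f ∪ Set.range g
  have : Finite S := ((Set.finite_range f).union (Set.finite_range g)).to_subtype
  let f' : I → S := fun i => ⟨f i, Or.inl ⟨i, rfl⟩⟩
  let g' : I → S := fun i => ⟨g i, Or.inr ⟨i, rfl⟩⟩
  intro a b c d w hw ha hb hc
  let L : Subgroup (S → Alt n) := (P.merge g').hom.eqLocus
    ((MulAut.conj (A.lam w)).toMonoidHom.comp (P.merge f').hom)
  have hL : (fun _ : S => cyc a b c d) ∈ L := by
    refine Subgroup.pi_mem_of_mulSingle_mem _ fun γ => ?_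
    show (P.merge g').hom _ = A.lam w * (P.merge f').hom _ * (A.lam w)⁻¹
    rw [merge_apply, merge_apply]
    have e := h γ.1 a b c d w hw ha hb hc
    rw [block_apply_eq, block_apply_eq] at e
    convert e using 1
    · exact congrArg P.hom (funext fun i => by simp [g', Pi.mulSingle_apply, Subtype.ext_iff])
    · congr 2
      exact congrArg P.hom (funext fun i => by simp [f', Pi.mulSingle_apply, Subtype.ext_iff])
  have hL' : (P.merge g').hom _ = A.lam w * (P.merge f').hom _ * (A.lam w)⁻¹ := hL
  rwa [(P.merge g').hom_const, (P.merge f').hom_const] at hL'

/-- A fixed coefficient is fixed by the multiples of the vector. -/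
theorem shift_zsmul {v : Lat} {e : Alt n →* Q} (he : A.Good e) (h : A.Shift v e e) (k : ℤ) :
    A.Shift (k • v) e e := by
  induction k using Int.induction_on with
  | zero => rw [zero_smul]; exact Amp.Shift.of_good_zero he
  | succ m ih => rw [add_smul, one_smul]; exact ih.add h
  | pred m ih => rw [sub_smul, one_smul, sub_eq_add_neg]; exact ih.add h.symm

/-- A good partition can be translated. -/
theorem exists_shiftPart [Finite I] {P : Part u I} (hP : GoodPart A P) {v : Lat}
    {u' : Alt n →* Q} (hu : A.Shift v u u') :
    ∃ P' : Part u' I, GoodPart A P' ∧ ∀ p : I → Prop, A.Shift v (block P p) (block P' p) := by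
  classical
  obtain ⟨P', h, hg⟩ := exists_pshift hP hu
  exact ⟨P', hg, h.shift_block⟩

end Vale.Agent.P196.Full.Lift
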